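import Vale.Agent.P193.W4.Rigid.Glue.Events

/-!
P193, module W4 C2: once every coset is a context, all cells commute. An observable of a field
outside its long event is an event of the common point and the path; two long events of different
cosets clash or lie one edge apart.
-/

noncomputable section

namespace Vale.Agent.P193.W4.Rigid.Glue

open BH BH.SFT Coset Finset Vale.Agent.P193.Action
open scoped Classical

variable {k : ℕ} {em : ℕ → Option (List (Full k))} {C : Common k em}
variable {K : Type} [Group K] {g : Fin k → K}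

/-- The cells of the two parts of a split observable. -/
lemma split_supp_subset {Γ : Type} [Group Γ] {S : SFT Γ} {o L : S.Obs} {U : Finset Γ}
    (ho : o.supp ⊆ U) (hL : L.supp ⊆ U) :
    (Obs.and o L).supp ⊆ U ∧ (Obs.diff o L).supp ⊆ U :=
  ⟨union_subset ho hL, union_subset ho hL⟩

/-- The event that the letter at `q` satisfies `P`. -/
def ind (q : K × Lat) (P : Letter C → Bool) : (cosetSFT C g).Obs where
  supp := {q}
  val x := P (x q)
  dep x y h := by rw [h q (mem_singleton_self q)]

lemma ind_coset (q : K × Lat) (P : Letter C → Bool) :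
    ∀ c ∈ (ind (g := g) q P).supp, c.1 = q.1 :=
  fun _ h => congrArg Prod.fst (eq_of_mem_singleton h)

/-- The test for a value of a field. -/
def fobs (u : K) (v : Lat) (φ : Fld) (d : Full k) : (cosetSFT C g).Obs :=
  ind (u, v) fun l => decide (φ.Has d l.2)

variable {E : EffAction K g}

/-- An event of the digits of a cell up to a level and of the code up to that level. -/
def digEv (C : Common k em) (E : EffAction K g) (v : Lat) (N : ℕ)
    (P : C.S.X → (ℕ → Bool) → Prop)
    (hP : ∀ c c' y y', (∀ m, m ≤ N → (C.tower c).zs (Multiplicative.toAdd v).1 m =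
      (C.tower c').zs (Multiplicative.toAdd v).1 m) →
      (∀ n, n ≤ N → code E y n = code E y' n) → P c y → P c' y') : BEv C E where
  W := (C.local_tower (Multiplicative.toAdd v) N).choose
  N := (code_dep E (N + 1)).choose
  val c y := decide (P c y)
  dep c c' y y' hW _ _ hb := by
    have hz : ∀ m, m ≤ N → (C.tower c).zs (Multiplicative.toAdd v).1 m =
        (C.tower c').zs (Multiplicative.toAdd v).1 m := fun m hm => funext fun i => by
      show sym _ = sym _
      rw [((C.local_tower (Multiplicative.toAdd v) N).choose_spec c c' hW).1 m hm]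
    have hcd : ∀ n, n ≤ N → code E y n = code E y' n := fun n hn =>
      (code_dep E (N + 1)).choose_spec y y' hb n (Nat.lt_succ_of_le hn)
    exact decide_eq_decide.2 ⟨hP c c' y y' hz hcd,
      hP c' c y' y (fun m hm => (hz m hm).symm) fun n hn => (hcd n hn).symm⟩

lemma digEv_val {v : Lat} {N : ℕ} {P : C.S.X → (ℕ → Bool) → Prop} {hP} (c : C.S.X)
    (y : ℕ → Bool) : (digEv C E v N P hP).val c y = decide (P c y) := rfl

/-- The event of a long line through a cell following the path. -/
def longEv (C : Common k em) (E : EffAction K g) (φ : Fld) (v : Lat) (N : ℕ) : BEv C E :=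
  digEv C E v N (fun c y => LongAt E φ (C.tower c) (Multiplicative.toAdd v).1 y N)
    fun c c' y y' hz hy ⟨σ, h⟩ => ⟨σ, fun m hm a ha => by rw [← hz m hm.le, ← hy m hm.le, h m hm a ha]⟩

/-- The value of a field outside its long event as an event of the common point and the path. -/
def shortEv (C : Common k em) (E : EffAction K g) (φ : Fld) (d : Full k) (v : Lat) (N : ℕ) :
    BEv C E :=
  digEv C E v N (fun c y => ¬LongAt E φ (C.tower c) (Multiplicative.toAdd v).1 y N ∧
      ∃ f c' y', Sees E f c' y' ∧
        (∀ m, m ≤ N → (C.tower c').zs (Multiplicative.toAdd v).1 m =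
          (C.tower c).zs (Multiplicative.toAdd v).1 m) ∧
        (∀ n, n ≤ N → code E y' n = code E y n) ∧ φ.Has d (f v).2)
    fun c c' y y' hz hy ⟨hl, f, c₀, y₀, h1, h2, h3, h4⟩ => by
      refine ⟨fun ⟨σ, h⟩ => hl ⟨σ, fun m hm a ha => ?_⟩, f, c₀, y₀, h1,
        fun m hm => (h2 m hm).trans (hz m hm), fun n hn => (h3 n hn).trans (hy n hn), h4⟩
      rw [hz m hm.le, hy m hm.le, h m hm a ha]

/-- The indices of the tests that determine a letter. -/
abbrev Test (C : Common k em) : Type := C.S.A ⊕ (Fld × Full k) ⊕ (Fin 3 × Fin k × Bool)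

/-- The tests that determine a letter. -/
def test : Test C → Letter C → Bool
  | .inl a => fun l => decide (l.1 = a)
  | .inr (.inl (φ, d)) => fun l => decide (φ.Has d l.2)
  | .inr (.inr (i, s, b)) => fun l => decide (l.2.Q i (some s) = some b)

lemma test_ext {l l' : Letter C} (h : ∀ j, test j l = test j l') : l = l' := by
  have hf : ∀ (φ : Fld) (d : Full k), φ.Has d l.2 ↔ φ.Has d l'.2 := fun φ d => by
    simpa [test] using h (.inr (.inl (φ, d)))
  refine Prod.ext ?_ ?_
  · exact ((by simpa [test] using (h (.inl l.1)).symm : l'.1 = l.1)).symm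
  obtain ⟨a, J, B, Q⟩ := l
  obtain ⟨a', J', B', Q'⟩ := l'
  have h1 : J = J' := funext fun i => Option.ext fun d => hf (.J i) d
  have h2 : B = B' := Option.ext fun d => hf .B d
  have h3 : Q = Q' := funext fun i => funext fun s => Option.ext fun b => by
    rcases s with _ | s
    · exact hf (.Q i) fun _ => b
    · simpa [test] using h (.inr (.inr (i, s, b)))
  rw [h1, h2, h3]

variable (hc : CosetsCtx C g) (hgen : Subgroup.closure (Set.range g) = ⊤)
  (hem : ∀ w, NoExt E w → ∃ L, w.length ≤ L ∧ em L = some w)

include hc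

/-- An observable of one coset split by another one commutes if both parts do. -/
lemma com_split {u w : K} {o L X : (cosetSFT C g).Obs} (ho : ∀ q ∈ o.supp, q.1 = u)
    (hL : ∀ q ∈ L.supp, q.1 = u) (hX : ∀ q ∈ X.supp, q.1 = w) (h1 : Com (Obs.and o L) X)
    (h2 : Com (Obs.diff o L) X) : Com o X := by
  let W := (o.supp ∪ L.supp).image Prod.snd
  have hso : o.supp ⊆ ({u} : Finset K) ×ˢ W := fun q hq => mem_coset_cells.2
    ⟨ho q hq, mem_image_of_mem _ (mem_union_left _ hq)⟩
  have hsL : L.supp ⊆ ({u} : Finset K) ×ˢ W := fun q hq => mem_coset_cells.2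
    ⟨hL q hq, mem_image_of_mem _ (mem_union_right _ hq)⟩
  refine com_of_determined (ι := Bool) (fun b => cond b (Obs.and o L) (Obs.diff o L)) (hc u W)
    hso o.thru_id
    (fun b => by cases b; exacts [(split_supp_subset hso hsL).2, (split_supp_subset hso hsL).1])
    (fun b => Obs.thru_id _ _) ((hc w (X.supp.image Prod.snd)).mono fun q hq => mem_coset_cells.2
      ⟨hX q hq, mem_image_of_mem _ hq⟩) X.thru_id (fun p q _ _ he => ?_)
    fun b => by cases b <;> assumption
  have e1 : (o.val p && L.val p) = (o.val q && L.val q) := he true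
  have e2 : (o.val p && !L.val p) = (o.val q && !L.val q) := he false
  cases h3 : o.val p <;> cases h4 : o.val q <;> cases h5 : L.val p <;> cases h6 : L.val q <;>
    simp_all

/-- The bit of a projection line as a test of a field. -/
lemma same_own_bit (u : K) (v : Lat) (i : Fin 3) (b : Bool) :
    Same (S := cosetSFT C g) (fobs u v (.Q i) fun _ => b)
      (compObs (u, v) (fun l : Letter C => l.2.Q i none) (some b)) := by
  refine same_on_coset hc (W₀ := {v}) (u := u) ?_ ?_ fun p _ => ?_
  · intro q hq
    rw [eq_of_mem_singleton hq]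
    exact mem_coset_cells.2 ⟨rfl, mem_singleton_self v⟩
  · intro q hq
    rw [eq_of_mem_singleton hq]
    exact mem_coset_cells.2 ⟨rfl, mem_singleton_self v⟩
  · exact decide_eq_decide.2 Iff.rfl

include hgen hem

/-- A common letter commutes with what lies in one coset. -/
lemma com_common (u : K) (v : Lat) (a : C.S.A) {X : (cosetSFT C g).Obs} {w : K}
    (hX : ∀ q ∈ X.supp, q.1 = w) : Com (ind (u, v) fun l : Letter C => decide (l.1 = a)) X := by
  let Φ : BEv C E := ⟨{v}, 0, fun c _ => decide (c.1 v = a),
    fun c c' _ _ h _ _ _ => by rw [h v (mem_singleton_self v)]⟩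
  refine Same.com (same_on_coset hc (u := u) (W₀ := {v} ∪ Φ.cells) ?_
    ((bev_supp u Φ).trans (product_subset_product_right subset_union_right)) fun p hp => ?_)
    (com_bev hc hem hgen u Φ hX)
  · intro q hq
    rw [eq_of_mem_singleton hq]
    exact mem_coset_cells.2 ⟨rfl, mem_union_left _ (mem_singleton_self v)⟩
  · obtain ⟨c, y, hs⟩ := exists_sees E hem hp
    rw [bev_val hs]
    show decide ((slice p u v).1 = a) = decide (c.1 v = a)
    rw [hs.com]

/-- Outside the long event a field commutes with what lies in one coset. -/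
lemma com_short (u : K) (v : Lat) (φ : Fld) (d : Full k) (N : ℕ) {X : (cosetSFT C g).Obs} {w : K}
    (hX : ∀ q ∈ X.supp, q.1 = w) :
    Com (Obs.diff (fobs u v φ d) (bev u (longEv C E φ v N))) X := by
  refine Same.com (same_on_coset hc (u := u)
    (W₀ := ({v} ∪ (longEv C E φ v N).cells) ∪ (shortEv C E φ d v N).cells) ?_
    ((bev_supp u _).trans (product_subset_product_right subset_union_right)) fun p hp => ?_)
    (com_bev hc hem hgen u (shortEv C E φ d v N) hX)
  · refine (split_supp_subset ?_ ((bev_supp u _).trans (product_subset_product_right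
      (subset_union_right.trans subset_union_left)))).2
    exact fun q hq => by
      rw [eq_of_mem_singleton hq]
      exact mem_coset_cells.2
        ⟨rfl, mem_union_left _ (mem_union_left _ (mem_singleton_self v))⟩
  · obtain ⟨c, y, hs⟩ := exists_sees E hem hp
    refine Eq.trans ?_ (bev_val hs).symm
    show (decide (φ.Has d (slice p u v).2) && !((bev u (longEv C E φ v N)).val p)) = _
    refine (congrArg (fun b => decide (φ.Has d (slice p u v).2) && !b) (bev_val hs)).trans ?_
    rw [shortEv, longEv, digEv_val, digEv_val]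
    by_cases hl : LongAt E φ (C.tower c) (Multiplicative.toAdd v).1 y N
    · simp [hl]
    · simp only [hl, decide_false, Bool.not_false, Bool.and_true, not_false_eq_true, true_and]
      refine decide_eq_decide.2 ⟨fun h => ⟨slice p u, c, y, hs, fun _ _ => rfl, fun _ _ => rfl, h⟩,
        fun ⟨f, c', y', h, hz, hy, hv⟩ => ?_⟩
      rw [hs.eq_counter]
      rw [h.eq_counter] at hv
      refine field_det h.one h.reads hs.reads hz hy (fun ⟨σ, hσ⟩ => hl ⟨σ, fun m hm a ha => ?_⟩) hv
      rw [← hz m hm.le, ← hy m hm.le, hσ m hm a ha]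

omit hgen hem in
/-- A bridge and the projection line one edge away commute. -/
lemma com_linked {u u' : K} (v v' : Lat) {φ ψ : Fld} (d d' : Full k)
    (h : Linked g φ ψ (u⁻¹ * u')) :
    Com (S := cosetSFT C g) (fobs u v φ d) (fobs u' v' ψ d') := by
  obtain ⟨-, ⟨i, rfl⟩, σ, hσ⟩ := h
  have hu : u' = u * gs g σ := inv_mul_eq_iff_eq_mul.1 hσ
  cases σ with
  | none =>
    refine com_coset hc (u := u) (ind_coset _ _) fun q hq => ?_
    rw [ind_coset _ _ q hq, hu]
    exact mul_one u
  | some s =>
    subst hu
    have e : Same (S := cosetSFT C g) (fobs (u * g s) v' (.Q i) d')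
        (fobs (u * g s) v' (.Q i) fun _ => d' none) :=
      same_on_coset hc (u := u * g s) (W₀ := {v'})
        (fun q hq => by rw [eq_of_mem_singleton hq]; exact mem_coset_cells.2 ⟨rfl, by simp⟩)
        (fun q hq => by rw [eq_of_mem_singleton hq]; exact mem_coset_cells.2 ⟨rfl, by simp⟩)
        fun p _ => decide_eq_decide.2 Iff.rfl
    refine Com.symm (Same.com (e.trans ((same_own_bit hc _ v' i (d' none)).trans
      (same_edge_bit u v' s i _).symm)) (com_coset hc (u := u) ?_ (ind_coset _ _)))
    exact fun q hq => congrArg Prod.fst (eq_of_mem_singleton hq)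

/-- Two fields commute. -/
theorem com_fields (u u' : K) (v v' : Lat) (φ ψ : Fld) (d d' : Full k) :
    Com (S := cosetSFT C g) (fobs u v φ d) (fobs u' v' ψ d') := by
  by_cases hu : u = u'
  · exact com_coset hc (u := u) (ind_coset _ _) fun q hq => (ind_coset _ _ q hq).trans hu.symm
  by_cases h1 : Linked g φ ψ (u⁻¹ * u')
  · exact com_linked hc v v' d d' h1
  by_cases h2 : Linked g ψ φ (u'⁻¹ * u)
  · exact (com_linked hc v' v d' d h2).symm
  have ht : u⁻¹ * u' ≠ 1 := fun h => hu (inv_mul_eq_one.1 h)
  obtain ⟨N, hN⟩ := exists_clash (em := em) E ht h1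
    (by rwa [mul_inv_rev, inv_inv]) (Multiplicative.toAdd v).1 (Multiplicative.toAdd v').1
  set L := bev u (longEv C E φ v N) with hLdef
  set L' := bev u' (longEv C E ψ v' N) with hL'def
  have hoL : ∀ q ∈ (Obs.and (fobs u v φ d) L).supp, q.1 = u := fun q hq =>
    ((@mem_union _ (_) _ _ _).1 hq).elim (fun h => ind_coset _ _ q h) (bev_coset u _ q)
  refine com_split hc (L := L) (ind_coset _ _) (bev_coset u _) (ind_coset _ _) ?_
    (com_short hc hgen hem u v φ d N (ind_coset _ _))
  refine Com.symm (com_split hc (L := L') (ind_coset _ _) (bev_coset u' _) hoL ?_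
    (com_short hc hgen hem u' v' ψ d' N hoL))
  refine Com.symm ?_
  have hmove := same_move hc hem hgen (u'⁻¹ * u) u' (longEv C E φ v N)
  rw [mul_inv_cancel_left, ← hLdef] at hmove
  set D := bev u' ((longEv C E φ v N).comp (u'⁻¹ * u)) with hD
  let W₁ := {v} ∪ (longEv C E φ v N).cells
  let W₀ := ({v'} ∪ (longEv C E ψ v' N).cells) ∪ ((longEv C E φ v N).comp (u'⁻¹ * u)).cells
  have s1 : (Obs.and (fobs u v φ d) L).supp ⊆ ({u} : Finset K) ×ˢ W₁ := by
    refine (split_supp_subset ?_
      ((bev_supp u _).trans (product_subset_product_right subset_union_right))).1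
    exact fun q hq => by
      rw [eq_of_mem_singleton hq]
      exact mem_coset_cells.2 ⟨rfl, mem_union_left _ (mem_singleton_self v)⟩
  have s2 : (Obs.and (fobs u' v' ψ d') L').supp ⊆ ({u'} : Finset K) ×ˢ W₀ := by
    refine (split_supp_subset ?_ ((bev_supp u' _).trans (product_subset_product_right
      (subset_union_right.trans subset_union_left)))).1
    exact fun q hq => by
      rw [eq_of_mem_singleton hq]
      exact mem_coset_cells.2
        ⟨rfl, mem_union_left _ (mem_union_left _ (mem_singleton_self v'))⟩
  have s3 : D.supp ⊆ ({u'} : Finset K) ×ˢ W₀ :=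
    (bev_supp u' _).trans (product_subset_product_right subset_union_right)
  obtain ⟨W₂, hW₂, hex⟩ := exists_imp (o := Obs.and (fobs u' v' ψ d') L') (d := D) s2 s3 false
    fun p hp hv => by
      obtain ⟨c, y', hs⟩ := exists_sees E hem hp
      have hl' : LongAt E ψ (C.tower c) (Multiplicative.toAdd v').1 y' N :=
        of_decide_eq_true ((bev_val (Φ := longEv C E ψ v' N) hs).symm.trans
          (Bool.and_eq_true_iff.1 hv).2)
      refine (bev_val hs).trans ?_
      rw [BEv.comp_val, longEv, digEv_val, decide_eq_false_iff_not, mul_inv_rev, inv_inv]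
      intro hl
      refine hN (C.tower c) _ (E.mem _ y' hs.mem) hl ?_
      revert hl'
      rw [← E.mul _ _ y' hs.mem, inv_mul_cancel, E.one y' hs.mem]
      exact id
  exact com_exclusive (hc u W₁) (hc u' W₂) s1 (Obs.thru_id _ _)
    ((bev_supp u _).trans (product_subset_product_right subset_union_right))
    (Obs.thru_id _ _) (s2.trans (product_subset_product_right hW₂)) (Obs.thru_id _ _)
    (s3.trans (product_subset_product_right hW₂)) (Obs.thru_id _ _) hmove
    (fun p _ h => (Bool.and_eq_true_iff.1 h).2) hex

/-- A field commutes with every test. -/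
lemma com_field_test (u : K) (v : Lat) (φ : Fld) (d : Full k) (q : K × Lat) (j : Test C) :
    Com (S := cosetSFT C g) (fobs u v φ d) (ind q (test j)) := by
  obtain ⟨u', v'⟩ := q
  rcases j with a | ⟨ψ, d'⟩ | ⟨i, s, b⟩
  · exact (com_common hc hgen hem u' v' a (ind_coset _ _)).symm
  · exact com_fields hc hgen hem u u' v v' φ ψ d d'
  · refine Com.symm (Same.com ?_ (com_fields hc hgen hem (u' * g s) u v' v (.Q i) φ (fun _ => b) d))
    refine Same.trans ?_ ((same_edge_bit u' v' s i (some b)).trans
      (same_own_bit hc _ v' i b).symm)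
    refine same_on_coset hc (u := u') (W₀ := {v'}) ?_ ?_ fun p _ => ?_
    · intro q hq
      rw [eq_of_mem_singleton hq]
      exact mem_coset_cells.2 ⟨rfl, mem_singleton_self v'⟩
    · intro q hq
      rw [eq_of_mem_singleton hq]
      exact mem_coset_cells.2 ⟨rfl, mem_singleton_self v'⟩
    · exact decide_eq_decide.2 Iff.rfl

/-- Two tests commute. -/
lemma com_tests (q q' : K × Lat) (j j' : Test C) :
    Com (S := cosetSFT C g) (ind q (test j)) (ind q' (test j')) := by
  obtain ⟨u, v⟩ := q
  rcases j with a | ⟨φ, d⟩ | ⟨i, s, b⟩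
  · exact com_common hc hgen hem u v a (ind_coset _ _)
  · exact com_field_test hc hgen hem u v φ d q' j'
  · refine Same.com ?_ (com_field_test hc hgen hem (u * g s) v (.Q i) (fun _ => b) q' j')
    refine Same.trans ?_ ((same_edge_bit u v s i (some b)).trans (same_own_bit hc _ v i b).symm)
    refine same_on_coset hc (u := u) (W₀ := {v}) ?_ ?_ fun p _ => ?_
    · intro q hq
      rw [eq_of_mem_singleton hq]
      exact mem_coset_cells.2 ⟨rfl, mem_singleton_self v⟩
    · intro q hq
      rw [eq_of_mem_singleton hq]
      exact mem_coset_cells.2 ⟨rfl, mem_singleton_self v⟩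
    · exact decide_eq_decide.2 Iff.rfl

/-- C2: if every coset is a context, all cells commute. -/
theorem rigid_of_cosets : (cosetSFT C g).Rigid := by
  have key : ∀ (a : K × Lat) (l : Letter C) (X : (cosetSFT C g).Obs) (w : K),
      (∀ q ∈ X.supp, q.1 = w) →
      (∀ j, Com (ind a (test j)) X) → Com ((cosetSFT C g).cellObs a l) X := by
    intro a l X w hX hj
    refine com_of_determined (ι := Test C) (fun j => ind a (test j))
      (hc a.1 {a.2}) ?_ (Obs.thru_id _ _) (fun j => ?_) (fun j => Obs.thru_id _ _)
      ((hc _ (X.supp.image Prod.snd)).mono fun q hq => mem_coset_cells.2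
        ⟨hX q hq, mem_image_of_mem _ hq⟩) (Obs.thru_id _ _) (fun p q _ _ he => ?_) hj
    · intro q hq
      rw [eq_of_mem_singleton hq]
      exact mem_coset_cells.2 ⟨rfl, mem_singleton_self _⟩
    · intro q hq
      rw [eq_of_mem_singleton hq]
      exact mem_coset_cells.2 ⟨rfl, mem_singleton_self _⟩
    · refine decide_eq_decide.2 ?_
      rw [show p a = q a from test_ext fun j => he j]
  intro a b l l'
  exact key a l _ b.1 (fun q hq => congrArg Prod.fst (eq_of_mem_singleton hq)) fun j =>
    Com.symm (key b l' _ a.1 (ind_coset _ _) fun j' => com_tests hc hgen hem b a j' j)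

end Vale.Agent.P193.W4.Rigid.Glue
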