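import Vale.Agent.P193.W4.Code.Basic
import Vale.Agent.P193.W4.Coset.Fold
import Vale.Agent.P193.W4.Tower.Arith

/-!
P193, module W4 C2: long lines of two cosets at a bounded offset do not occur together. They share
an axis, above the offset its symbols are the same, and the tracks of two cosets differ there.
-/

namespace Vale.Agent.P193.W4.Rigid.Glue

open Vale.Agent.P193.Action
open scoped Classical

noncomputable section

variable {k : ℕ}

/-- The fields that are not moved to another coset. -/
inductive Fld where
  | J (i : Fin 3)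
  | B
  | Q (i : Fin 3)
deriving DecidableEq, Fintype

namespace Fld

/-- The axes read by a field. -/
def On : Fld → Fin 3 → Prop
  | .J i, a => a = i ∨ a = i + 1
  | .B, a => a = 0 ∨ a = 1
  | .Q i, a => a = i ∨ a = i + 1

/-- The symbol on an axis of a field over the letter `d`, seen by the track `σ`. -/
def symOn (d : Full k) (σ : Option (Fin k)) : Fld → Fin 3 → Mid k
  | .J _, _ => .full d
  | .B, a => if a = 0 then .full d else .pad (d σ)
  | .Q _, _ => .pad (d none)

lemma exists_axis (φ ψ : Fld) : ∃ a, φ.On a ∧ ψ.On a ∧ (φ = .B → ψ = .B → a = 0) := by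
  have h : ∀ i j : Fin 3, ∃ a, (a = i ∨ a = i + 1) ∧ (a = j ∨ a = j + 1) := by decide
  cases φ <;> cases ψ <;> simp only [On, reduceCtorEq, false_imp_iff, implies_true, and_true,
    forall_const]
  case B.B => exact ⟨0, Or.inl rfl, Or.inl rfl, rfl⟩
  all_goals exact h _ _

end Fld

variable {K : Type} [Group K] {g : Fin k → K} {em : ℕ → Option (List (Full k))}

/-- A line of the field through the cell follows the letters of `y` at all levels below `N`. -/
def LongAt (E : EffAction K g) (φ : Fld) (T : Tower k em) (v : Fin 3 → ℤ) (y : ℕ → Bool)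
    (N : ℕ) : Prop :=
  ∃ σ, ∀ m, m < N → ∀ a, φ.On a → T.zs v m a = some (φ.symOn (code E y m) σ a)

/-- Symbols at a bounded offset agree above it. -/
lemma zs_eq_above (T : Tower k em) {v w : Fin 3 → ℤ} {a : Fin 3} {M m : ℕ} {s s' : Mid k}
    (hd : |w a - v a| ≤ (base k : ℤ) ^ M) (hM : M ≤ m) (hs : T.zs v M a = some s)
    (hs' : T.zs w M a = some s') : T.zs v m a = T.zs w m a :=
  congrArg sym (T.digit_above (T.symbols_eq hs hs' hd).symm hM)

variable (E : EffAction K g)

/-- The exceptions: a bridge and a projection line one edge away. -/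
def Linked (g : Fin k → K) (φ ψ : Fld) (t : K) : Prop :=
  φ = .B ∧ (∃ i, ψ = .Q i) ∧ ∃ σ, t = gs g σ

/-- Two long lines of different cosets that are not linked do not occur together. -/
theorem exists_clash {φ ψ : Fld} {t : K} (ht : t ≠ 1) (h1 : ¬Linked g φ ψ t)
    (h2 : ¬Linked g ψ φ t⁻¹) (v w : Fin 3 → ℤ) :
    ∃ N, ∀ (T : Tower k em), ∀ y ∈ E.Y, LongAt E φ T v y N →
      LongAt E ψ T w (E.act t⁻¹ y) N → False := by
  obtain ⟨M, hM⟩ : ∃ M : ℕ, ∀ a, |w a - v a| ≤ (base k : ℤ) ^ M := by
    have hb : 2 ≤ base k := by unfold base; omega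
    refine ⟨(w 0 - v 0).natAbs + (w 1 - v 1).natAbs + (w 2 - v 2).natAbs, fun a => ?_⟩
    rw [Int.abs_eq_natAbs]
    exact_mod_cast le_trans (by fin_cases a <;> simp <;> omega)
      ((Nat.lt_pow_self (n := (w 0 - v 0).natAbs + (w 1 - v 1).natAbs + (w 2 - v 2).natAbs)
        (show 1 < base k by omega)).le)
  have hJ : ∀ q : Option (Fin k) × Option (Fin k), ∃ J, gs g q.1 ≠ t * gs g q.2 → ∀ y ∈ E.Y,
      ∃ i, M ≤ i ∧ i < J ∧ E.act (gs g q.1)⁻¹ y i ≠ E.act (t * gs g q.2)⁻¹ y i := fun q => by
    by_cases hq : gs g q.1 = t * gs g q.2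
    · exact ⟨0, fun h => absurd hq h⟩
    · obtain ⟨J, hJ⟩ := differ_bound E hq M
      exact ⟨J, fun _ => hJ⟩
  choose J hJ using hJ
  refine ⟨M + 1 + Finset.univ.sup J, fun T y hy hv hw => ?_⟩
  obtain ⟨σ, hσ⟩ := hv
  obtain ⟨τ, hτ⟩ := hw
  obtain ⟨a, ha, ha', hBB⟩ := Fld.exists_axis φ ψ
  have key : ∀ m, M ≤ m → m < M + 1 + Finset.univ.sup J →
      φ.symOn (code E y m) σ a = ψ.symOn (code E (E.act t⁻¹ y) m) τ a := fun m h1 h2 => by
    have e := zs_eq_above T (m := m) (hM a) h1 (hσ M (by omega) a ha) (hτ M (by omega) a ha')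
    rw [hσ m h2 a ha, hτ m h2 a ha'] at e
    exact Option.some.inj e
  have clash : ∀ s s', gs g s ≠ t * gs g s' →
      (∀ m, M ≤ m → m < M + 1 + Finset.univ.sup J →
        code E y m s = code E (E.act t⁻¹ y) m s') → False := fun s s' hne h => by
    obtain ⟨i, h3, h4, h5⟩ := hJ (s, s') hne y hy
    have hi : i < M + 1 + Finset.univ.sup J := by
      have := Finset.le_sup (f := J) (Finset.mem_univ (s, s'))
      omega
    refine h5 ?_
    have := h i h3 hi
    rw [mul_inv_rev, E.mul _ _ y hy]
    exact this
  have hne0 : gs g none ≠ t * gs g none := by simpa [gs] using ht.symm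
  have hk := key M le_rfl (by omega)
  cases φ with
  | J i =>
    cases ψ with
    | J j => exact clash none none hne0 fun m p q => congrFun (Mid.full.inj (key m p q)) none
    | B =>
      by_cases h : a = 0
      · exact clash none none hne0 fun m p q => by
          have := key m p q
          simp only [Fld.symOn, h, if_true, Mid.full.injEq] at this
          rw [this]
      · simp [Fld.symOn, h] at hk
    | Q j => simp [Fld.symOn] at hk
  | B =>
    cases ψ with
    | J j =>
      by_cases h : a = 0
      · exact clash none none hne0 fun m p q => by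
          have := key m p q
          simp only [Fld.symOn, h, if_true, Mid.full.injEq] at this
          rw [this]
      · simp [Fld.symOn, h] at hk
    | B =>
      exact clash none none hne0 fun m p q => by
        have := key m p q
        simp only [Fld.symOn, hBB rfl rfl, if_true, Mid.full.injEq] at this
        rw [this]
    | Q j =>
      by_cases h : a = 0
      · simp [Fld.symOn, h] at hk
      · refine clash σ none (fun e => h1 ⟨rfl, ⟨j, rfl⟩, σ, by simpa [gs] using e.symm⟩)
          fun m p q => ?_
        have := key m p q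
        simpa [Fld.symOn, h] using this
  | Q i =>
    cases ψ with
    | J j => simp [Fld.symOn] at hk
    | B =>
      by_cases h : a = 0
      · simp [Fld.symOn, h] at hk
      · refine clash none τ (fun e => h2 ⟨rfl, ⟨i, rfl⟩, τ, ?_⟩) fun m p q => ?_
        · simp only [gs] at e ⊢
          exact inv_eq_of_mul_eq_one_right e.symm
        · have := key m p q
          simpa [Fld.symOn, h] using this
    | Q j => exact clash none none hne0 fun m p q => Mid.pad.inj (key m p q)

end

end Vale.Agent.P193.W4.Rigid.Glue
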