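import Vale.Agent.P193.W4.Rigid.Glue.Clash
import Vale.Agent.P193.W4.Coset.Sem

/-!
P193, module W4 C2: over one tower, a field of one coset with exact slots is a slot of bounded
length or lies on a long line following the path of the coset.
-/

namespace Vale.Agent.P193.W4.Rigid.Glue

open Vale.Agent.P193.Action Coset
open scoped Classical

noncomputable section

variable {K : Type} [Group K] {k : ℕ} {g : Fin k → K} {em : ℕ → Option (List (Full k))}

/-- The field has the value `d`; for a projection line only the own track of `d` counts. -/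
def Fld.Has : Fld → Full k → JCell k → Prop
  | .J i, d, c => c.J i = some d
  | .B, d, c => c.B = some d
  | .Q i, d, c => c.Q i none = some (d none)

lemma slot_congr {T T' : Tower k em} {c c' : (Fin 3 → ℤ) → JCell k} {p p' : ℕ → Full k}
    (h : Reads T c p) (h' : Reads T' c' p') {σ : List (Full k)}
    (he : ∀ n, n ≤ σ.length → p n = p' n) : slotVal T c σ = slotVal T' c' σ := by
  by_cases hp : IsPreW σ p
  · rw [h.slot hp, h'.slot fun i hi => (hp i hi).trans (he i hi.le), he _ le_rfl]
  · rw [h.slot_off hp, h'.slot_off fun hp' => hp fun i hi => (hp' i hi).trans (he i hi.le).symm]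

lemma pslot_congr {T T' : Tower k em} {c c' : (Fin 3 → ℤ) → JCell k} {p p' : ℕ → Full k}
    (h : Reads T c p) (h' : Reads T' c' p') {π : List Bool} {t : Option (Fin k)}
    (he : ∀ n, n ≤ π.length → p n t = p' n t) :
    pslotVal T c t π = pslotVal T' c' t π := by
  by_cases hp : IsPreW π fun n => p n t
  · rw [h.pslot hp, h'.pslot fun i hi => (hp i hi).trans (he i hi.le), he _ le_rfl]
  · rw [h.pslot_off hp, h'.pslot_off fun hp' => hp fun i hi => (hp' i hi).trans (he i hi.le).symm]

/-- Above a line below `N`, or letters on both axes up to `N`. -/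
lemma eq_shape (T : Tower k em) (v : Fin 3 → ℤ) (i : Fin 3)
    (h : (T.stAt v 0).flags.eq i = true) : ∀ N, (∃ σ, σ.length < N ∧ T.Line v i σ) ∨
      ((T.stAt v N).flags.eq i = true ∧ ∀ m, m < N → ∃ d,
        T.zs v m i = some (.full d) ∧ T.zs v m (i + 1) = some (.full d))
  | 0 => Or.inr ⟨h, fun m hm => absurd hm (Nat.not_lt_zero m)⟩
  | N + 1 => by
    rcases eq_shape T v i h N with ⟨σ, hσ, hl⟩ | ⟨he, hd⟩
    · exact Or.inl ⟨σ, hσ.trans (Nat.lt_succ_self N), hl⟩
    rw [T.flags_step] at he
    simp only [Flags.step] at he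
    rcases hz : T.zs v N i with _ | z
    · simp [hz] at he
    · cases z <;> simp [hz] at he
      case full d =>
        refine Or.inr ⟨he.1, fun m hm => ?_⟩
        rcases Nat.lt_succ_iff_lt_or_eq.1 hm with hm | rfl
        exacts [hd m hm, ⟨d, hz, he.2⟩]
      case hash =>
        choose! ds hds using hd
        refine Or.inl ⟨List.ofFn fun m : Fin N => ds m, by simp, by simpa using hz, fun l hl => ?_⟩
        simpa using hds l (by simpa using hl)

/-- Above a projection line below `N`, or letters on both axes up to `N`. -/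
lemma peq_shape (T : Tower k em) (v : Fin 3 → ℤ) (i : Fin 3)
    (h : (T.stAt v 0).flags.peq i = true) : ∀ N, (∃ π, π.length < N ∧ T.PLine v i π) ∨
      ((T.stAt v N).flags.peq i = true ∧ ∀ m, m < N → ∃ b,
        T.zs v m i = some (.pad b) ∧ T.zs v m (i + 1) = some (.pad b))
  | 0 => Or.inr ⟨h, fun m hm => absurd hm (Nat.not_lt_zero m)⟩
  | N + 1 => by
    rcases peq_shape T v i h N with ⟨σ, hσ, hl⟩ | ⟨he, hd⟩
    · exact Or.inl ⟨σ, hσ.trans (Nat.lt_succ_self N), hl⟩
    rw [T.flags_step] at he
    simp only [Flags.step] at he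
    rcases hz : T.zs v N i with _ | z
    · simp [hz] at he
    · cases z <;> simp [hz] at he
      case pad b =>
        refine Or.inr ⟨he.1, fun m hm => ?_⟩
        rcases Nat.lt_succ_iff_lt_or_eq.1 hm with hm | rfl
        exacts [hd m hm, ⟨b, hz, he.2⟩]
      case phash =>
        choose! ds hds using hd
        refine Or.inl ⟨List.ofFn fun m : Fin N => ds m, by simp, by simpa using hz, fun l hl => ?_⟩
        simpa using hds l (by simpa using hl)

/-- Above a bridge below `N`, or bridge letters up to `N`. -/
lemma br_shape (T : Tower k em) (v : Fin 3 → ℤ) (s : Option (Fin k))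
    (h : (T.stAt v 0).flags.br s = true) : ∀ N, (∃ σ, σ.length < N ∧ T.Bridge v s σ) ∨
      ((T.stAt v N).flags.br s = true ∧ ∀ m, m < N → ∃ d,
        T.zs v m 0 = some (.full d) ∧ T.zs v m 1 = some (.pad (d s)))
  | 0 => Or.inr ⟨h, fun m hm => absurd hm (Nat.not_lt_zero m)⟩
  | N + 1 => by
    rcases br_shape T v s h N with ⟨σ, hσ, hl⟩ | ⟨he, hd⟩
    · exact Or.inl ⟨σ, hσ.trans (Nat.lt_succ_self N), hl⟩
    rw [T.flags_step] at he
    simp only [Flags.step] at he
    rcases hz : T.zs v N 0 with _ | z
    · simp [hz] at he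
    · cases z <;> simp [hz] at he
      case full d =>
        refine Or.inr ⟨he.1, fun m hm => ?_⟩
        rcases Nat.lt_succ_iff_lt_or_eq.1 hm with hm | rfl
        exacts [hd m hm, ⟨d, hz, he.2⟩]
      case hash =>
        choose! ds hds using hd
        refine Or.inl ⟨List.ofFn fun m : Fin N => ds m, by simp,
          ⟨by simpa using hz, by simpa using he⟩, fun l hl => ?_⟩
        simpa using hds l (by simpa using hl)

variable {E : EffAction K g} {T : Tower k em} {c : (Fin 3 → ℤ) → JCell k} {y : ℕ → Bool}

/-- A sequence of which the first `N` terms are a prefix of another agrees with it below `N`. -/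
lemma agree_of_pre {α : Type} {N : ℕ} {ds p : ℕ → α}
    (h : IsPreW (List.ofFn fun m : Fin N => ds m) p) (m : ℕ) (hm : m < N) : p m = ds m := by
  rw [← h m (by simpa using hm), List.getElem_ofFn]

/-- A field that is not on a long line following the code depends only on the low digits and the
code up to that level. -/
theorem field_det {T' : Tower k em} {c' : (Fin 3 → ℤ) → JCell k} {y' : ℕ → Bool}
    (hc : One T c) (h : Reads T c (code E y))
    (h' : Reads T' c' (code E y')) {v : Fin 3 → ℤ} {φ : Fld} {d : Full k} {N : ℕ}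
    (hd : ∀ m, m ≤ N → T.zs v m = T'.zs v m) (hy : ∀ n, n ≤ N → code E y n = code E y' n)
    (hl : ¬LongAt E φ T v y N) (hv : φ.Has d (c v)) : φ.Has d (c' v) := by
  cases φ with
  | J i =>
    have hs : ((c v).J i) = some d := hv
    have heq : (T.stAt v 0).flags.eq i = true := by
      by_contra hne
      rw [(hc.cell v).absentJ i (Bool.eq_false_iff.2 hne)] at hs
      simp at hs
    rcases eq_shape T v i heq N with ⟨σ, hσ, hL⟩ | ⟨-, hlet⟩
    · have hL' : T'.Line v i σ := ⟨by rw [← hd _ hσ.le]; exact hL.1,
        fun l hl' => by rw [← hd l (hl'.le.trans hσ.le)]; exact hL.2 l hl'⟩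
      show (c' v).J i = some d
      rw [← hs]
      rw [h.line hL, h'.line hL']
      exact (slot_congr h h' fun n hn => hy n (hn.trans hσ.le)).symm
    · choose! ds hds using hlet
      have hcd := agree_of_pre (hc.prefix_of_J h (i := i) (v := v) (by rw [hs]; rfl)
        (τ := List.ofFn fun m : Fin N => ds m) fun l hl => by simpa using hds l (by simpa using hl))
      refine absurd ⟨none, fun m hm a ha => ?_⟩ hl
      show T.zs v m a = some (.full (code E y m))
      rw [hcd m hm]
      rcases ha with rfl | rfl
      exacts [(hds m hm).1, (hds m hm).2]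
  | B =>
    have hs : (c v).B = some d := hv
    obtain ⟨s, hbr⟩ : (T.stAt v 0).flags.HasB := by
      by_contra hne
      rw [(hc.cell v).absentB hne] at hs
      simp at hs
    rcases br_shape T v s hbr N with ⟨σ, hσ, hL⟩ | ⟨-, hlet⟩
    · have hL' : T'.Bridge v s σ := ⟨by rw [← hd _ hσ.le]; exact hL.1,
        fun l hl' => by rw [← hd l (hl'.le.trans hσ.le)]; exact hL.2 l hl'⟩
      show (c' v).B = some d
      rw [← hs]
      rw [h.bridge hL, h'.bridge hL']
      exact (slot_congr h h' fun n hn => hy n (hn.trans hσ.le)).symm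
    · choose! ds hds using hlet
      have hcd := agree_of_pre (hc.prefix_of_B h (v := v) (by rw [hs]; rfl)
        (τ := List.ofFn fun m : Fin N => ds m) fun l hl => by
          simpa using (hds l (by simpa using hl)).1)
      refine absurd ⟨s, fun m hm a ha => ?_⟩ hl
      rw [hcd m hm]
      rcases ha with rfl | rfl
      · simpa [Fld.symOn] using (hds m hm).1
      · simpa [Fld.symOn] using (hds m hm).2
  | Q i =>
    have hs : (c v).Q i none = some (d none) := hv
    have heq : (T.stAt v 0).flags.peq i = true := by
      by_contra hne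
      rw [(hc.cell v).absentQ i none (Bool.eq_false_iff.2 hne)] at hs
      simp at hs
    rcases peq_shape T v i heq N with ⟨π, hπ, hL⟩ | ⟨-, hlet⟩
    · have hL' : T'.PLine v i π := ⟨by rw [← hd _ hπ.le]; exact hL.1,
        fun l hl' => by rw [← hd l (hl'.le.trans hπ.le)]; exact hL.2 l hl'⟩
      show (c' v).Q i none = some (d none)
      rw [← hs]
      rw [h.pline none hL, h'.pline none hL']
      exact (pslot_congr h h' fun n hn => by rw [hy n (hn.trans hπ.le)]).symm
    · choose! ds hds using hlet
      have hcd := agree_of_pre (p := fun n => code E y n none) (hc.prefix_of_Q h (t := none)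
        (i := i) (v := v) (by rw [hs]; rfl)
        (τ := List.ofFn fun m : Fin N => ds m) fun l hl => by simpa using hds l (by simpa using hl))
      refine absurd ⟨none, fun m hm a ha => ?_⟩ hl
      show T.zs v m a = some (.pad (code E y m none))
      rw [hcd m hm]
      rcases ha with rfl | rfl
      exacts [(hds m hm).1, (hds m hm).2]

end

end Vale.Agent.P193.W4.Rigid.Glue
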