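import Vale.Agent.P193.W4.Rigid.Glue.Move
import Vale.Agent.P193.W4.Rigid.Glue.Field
import Vale.Agent.P193.W4.Coset.Semantics

/-!
P193, module W4 C2: events of the common point and the path of a coset. They are read from the own
tracks of the projection lines, and are equal to events of any other coset.
-/

noncomputable section

namespace Vale.Agent.P193.W4.Rigid.Glue

open BH BH.SFT Coset Finset Vale.Agent.P193.Action
open scoped Classical

variable {k : ℕ} {em : ℕ → Option (List (Full k))} {C : Common k em}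
variable {K : Type} [Group K] {g : Fin k → K}

/-- The configuration of a coset shows the common point `c` and reads the code of `y`. -/
structure Sees (E : EffAction K g) (f : Cfg C) (c : C.S.X) (y : ℕ → Bool) : Prop where
  com : ∀ v, (f v).1 = c.1 v
  mem : y ∈ E.Y
  one : One (C.tower c) (counter fun v => (f v).2)
  reads : Reads (C.tower c) (counter fun v => (f v).2) (code E y)
  eq_counter : ∀ v, (f v).2 = counter (fun v => (f v).2) (Multiplicative.toAdd v).1

variable (E : EffAction K g)

/-- Every configuration of a coset sees a point and a path. -/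
lemma exists_sees (hem : ∀ w, NoExt E w → ∃ L, w.length ≤ L ∧ em L = some w) {f : Cfg C}
    (hf : OneCfg f) : ∃ c y, Sees E f c y := by
  let c : C.S.X := ⟨fun v => (f v).1, fun v => (hf v).common⟩
  let z : Place := (fun _ => false, fun _ => false)
  have h : OneOK C c fun v => (f v).2 := by
    refine ⟨fun v => ?_, fun v b => ?_, fun v a => ?_⟩
    · have := (hf v).cell z
      rwa [pv_zero, mul_one] at this
    · have := (hf v).plane z b rfl
      rwa [pv_update_snd z b rfl, pv_zero, mul_one, one_mul] at this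
    · have := (hf v).line z a rfl
      rwa [pv_update_fst z a rfl, pv_zero, mul_one, one_mul] at this
  obtain ⟨y, hy, hr⟩ := h.exists_reads E hem
  exact ⟨c, y, fun _ => rfl, hy, h.toOne, hr, h.eq_counter⟩

/-- The own track of the coset at `gs g s`. -/
def track (y : ℕ → Bool) (s : Option (Fin k)) : ℕ → Bool := E.act (gs g s)⁻¹ y

lemma code_track (y : ℕ → Bool) (n : ℕ) (s : Option (Fin k)) : code E y n s = track E y s n := rfl

lemma track_none {y : ℕ → Bool} (hy : y ∈ E.Y) : track E y none = y :=
  funext fun n => code_none E hy n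

/-! ### Reading a track -/

/-- The first bits of a track are read near the origin. -/
lemma exists_read (C : Common k em) (N : ℕ) : ∃ W : Finset Lat,
    ∀ (f f' : Cfg C) c c' y y' s s', Sees E f c y → Sees E f' c' y' →
      (∀ v ∈ W, (f v).1 = (f' v).1 ∧ trkQ s (f v) = trkQ s' (f' v)) →
      ∀ n, n < N → track E y s n = track E y' s' n := by
  choose U hU using fun v : V => C.local_tower v N
  let box : Finset V := (Fintype.piFinset fun _ : Fin 3 =>
    Finset.Icc (-((base k : ℤ) ^ N)) ((base k : ℤ) ^ N)).image fun a => (a, 0)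
  refine ⟨box.image Multiplicative.ofAdd ∪ box.biUnion U,
    fun f f' c c' y y' s s' h h' hw n hn => ?_⟩
  let π : List Bool := List.ofFn fun l : Fin n => code E y l s
  obtain ⟨w, -, hnear, hd⟩ := (C.tower c).exists_cell_near (n + 1) 0
    fun l _ => pos (if l < n then Mid.pad (code E y l s) else Mid.phash)
  have hbox : (w, (0 : Fin 2 → ℤ)) ∈ box := by
    refine mem_image.2 ⟨w, Fintype.mem_piFinset.2 fun i => ?_, rfl⟩
    have h1 := hnear i
    have h2 : (base k : ℤ) ^ (n + 1) ≤ (base k : ℤ) ^ N :=
      pow_le_pow_right₀ (by unfold base; omega) hn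
    rw [Pi.zero_apply, sub_zero, abs_lt] at h1
    rw [Finset.mem_Icc]
    omega
  have hz : ∀ l, l ≤ n → ∀ i, (C.tower c).zs w l i =
      some (if l < n then Mid.pad (code E y l s) else Mid.phash) := fun l hl i => by
    show sym ((C.tower c).digit w l i) = _
    rw [hd l (Nat.lt_succ_of_le hl)]
    exact sym_eq_some.2 rfl
  have hagree : C.S.AgreeOn (U (w, 0)) c c' := fun v hv => by
    rw [← h.com, ← h'.com]
    exact (hw v (mem_union_right _ (mem_biUnion.2 ⟨_, hbox, hv⟩))).1
  have hdig := (hU (w, 0) c c' hagree).1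
  have hz' : ∀ l, l ≤ n → ∀ i, (C.tower c').zs w l i = (C.tower c).zs w l i := fun l hl i => by
    show sym ((C.tower c').digit w l i) = sym ((C.tower c).digit w l i)
    rw [hdig l (hl.trans hn.le)]
  have hlen : π.length = n := List.length_ofFn
  have hP : (C.tower c).PLine w 0 π := by
    refine ⟨by rw [hlen]; simpa using hz n le_rfl 0, fun l hl => ?_⟩
    rw [hlen] at hl
    simp [π, hz l hl.le, hl]
  have hP' : (C.tower c').PLine w 0 π := by
    refine ⟨by rw [hlen, hz' n le_rfl]; exact hlen ▸ hP.1, fun l hl => ?_⟩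
    rw [hz' l (hlen ▸ hl.le), hz' l (hlen ▸ hl.le)]
    exact hP.2 l hl
  have hQ : (counter (fun v => (f v).2) w).Q 0 s = (counter (fun v => (f' v).2) w).Q 0 s' :=
    congrFun (hw (Multiplicative.ofAdd (w, 0))
      (mem_union_left _ (mem_image_of_mem _ hbox))).2 0
  rw [h.reads.pline s hP, h'.reads.pline s' hP',
    h.reads.pslot (t := s) (π := π) (fun l hl => by simp [π])] at hQ
  have hp' : IsPreW π fun m => code E y' m s' := by
    by_contra hne
    rw [h'.reads.pslot_off hne] at hQ
    simp at hQ
  rw [h'.reads.pslot hp', hlen] at hQ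
  rw [← code_track, ← code_track]
  exact Option.some.inj hQ

/-- The cells from which the first bits of a track are read. -/
def readW (C : Common k em) (N : ℕ) : Finset Lat := (exists_read E C N).choose

/-! ### Events -/

/-- An event of a common point and a path that looks at finitely many cells and bits. -/
structure BEv (C : Common k em) (E : EffAction K g) where
  W : Finset Lat
  N : ℕ
  val : C.S.X → (ℕ → Bool) → Bool
  dep : ∀ c c' y y', (∀ v ∈ W, c.1 v = c'.1 v) → y ∈ E.Y → y' ∈ E.Y → (∀ n, n < N → y n = y' n) →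
    val c y = val c' y'

variable {E}

/-- The event of the translated path. -/
def BEv.comp (Φ : BEv C E) (t : K) : BEv C E where
  W := Φ.W
  N := (Finset.range Φ.N).sup (fun n => (E.cont t⁻¹ n).choose) + 1
  val c y := Φ.val c (E.act t⁻¹ y)
  dep c c' y y' hW hy hy' h := Φ.dep c c' _ _ hW (E.mem _ y hy) (E.mem _ y' hy') fun n hn => by
    rw [(E.cont t⁻¹ n).choose_spec, (E.cont t⁻¹ n).choose_spec]
    exact h _ (Nat.lt_succ_of_le (Finset.le_sup (f := fun n => (E.cont t⁻¹ n).choose)
      (mem_range.2 hn)))

lemma BEv.comp_val (Φ : BEv C E) (t : K) (c : C.S.X) (y : ℕ → Bool) :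
    (Φ.comp t).val c y = Φ.val c (E.act t⁻¹ y) := rfl

/-- The cells from which an event is read. -/
def BEv.cells (Φ : BEv C E) : Finset Lat := Φ.W ∪ readW E C Φ.N

/-- The value of an event from what is read on its cells. -/
def BEv.read (Φ : BEv C E) (t : Φ.cells → C.S.A × (Fin 3 → Option Bool)) : Bool :=
  decide (∃ f c y s, Sees E f c y ∧ (∀ v, t v = ((f v.1).1, trkQ s (f v.1))) ∧
    Φ.val c (track E y s) = true)

lemma BEv.read_val (Φ : BEv C E) {f : Cfg C} {c : C.S.X} {y : ℕ → Bool} (h : Sees E f c y)
    (s : Option (Fin k)) :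
    Φ.read (fun v => ((f v.1).1, trkQ s (f v.1))) = Φ.val c (track E y s) := by
  have key : ∀ f' c' y' s', Sees E f' c' y' →
      (∀ v : Φ.cells, ((f v.1).1, trkQ s (f v.1)) = ((f' v.1).1, trkQ s' (f' v.1))) →
      Φ.val c (track E y s) = Φ.val c' (track E y' s') := fun f' c' y' s' h' he => by
    refine Φ.dep c c' _ _ (fun v hv => ?_) (E.mem _ y h.mem) (E.mem _ y' h'.mem) ?_
    · rw [← h.com, ← h'.com]
      exact (Prod.mk.inj (he ⟨v, mem_union_left _ hv⟩)).1
    · refine (exists_read E C Φ.N).choose_spec f f' c c' y y' s s' h h' fun v hv => ?_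
      have := he ⟨v, mem_union_right _ hv⟩
      exact Prod.mk.inj this
  cases hv : Φ.val c (track E y s)
  · rw [BEv.read, decide_eq_false_iff_not]
    rintro ⟨f', c', y', s', h', he, hv'⟩
    rw [← key f' c' y' s' h' he, hv] at hv'
    exact Bool.noConfusion hv'
  · rw [BEv.read, decide_eq_true_iff]
    exact ⟨f, c, y, s, h, fun _ => rfl, hv⟩

/-- An event read in the coset `u`. -/
def bev (u : K) (Φ : BEv C E) : (cosetSFT C g).Obs :=
  readObs (fun v : Φ.cells => ((u, v.1) : K × Lat)) (fun l : Letter C => (l.1, ownQ l)) Φ.read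

lemma bev_supp (u : K) (Φ : BEv C E) : (bev u Φ).supp ⊆ ({u} : Finset K) ×ˢ Φ.cells := by
  intro q hq
  obtain ⟨v, -, rfl⟩ := (@mem_image _ _ (_) _ _ _).1 hq
  exact mem_coset_cells.2 ⟨rfl, v.2⟩

lemma bev_coset (u : K) (Φ : BEv C E) : ∀ q ∈ (bev u Φ).supp, q.1 = u :=
  fun _ hq => (mem_coset_cells.1 (bev_supp u Φ hq)).1

lemma bev_val {u : K} {Φ : BEv C E} {p : K × Lat → Letter C} {c : C.S.X} {y : ℕ → Bool}
    (h : Sees E (slice p u) c y) : (bev u Φ).val p = Φ.val c y := by
  have := Φ.read_val h none
  rw [track_none E h.mem] at this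
  exact this

variable (hc : CosetsCtx C g) (hem : ∀ w, NoExt E w → ∃ L, w.length ≤ L ∧ em L = some w)

include hc hem

/-- Events equal on the points of the action are equal. -/
lemma same_bev (u : K) {Φ Ψ : BEv C E} (h : ∀ c, ∀ y ∈ E.Y, Φ.val c y = Ψ.val c y) :
    Same (bev u Φ) (bev u Ψ) := by
  refine same_on_coset hc (W₀ := Φ.cells ∪ Ψ.cells)
    ((bev_supp u Φ).trans (product_subset_product_right subset_union_left))
    ((bev_supp u Ψ).trans (product_subset_product_right subset_union_right)) fun p hp => ?_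
  obtain ⟨c, y, hs⟩ := exists_sees E hem hp
  rw [bev_val hs, bev_val hs]
  exact h c y hs.mem

/-- An event of a neighbour is an event of the coset. -/
lemma same_step (u : K) (s : Fin k) (Φ : BEv C E) :
    Same (bev (u * g s) Φ) (bev u (Φ.comp (g s))) := by
  let mid : (cosetSFT C g).Obs := readObs (fun v : Φ.cells => ((u, v.1) : K × Lat))
    (fun l : Letter C => (l.1, trkQ (some s) l)) Φ.read
  have h1 : Same (bev (u * g s) Φ) mid :=
    same_readObs (S := cosetSFT C g) (hc (u * g s) Φ.cells) (hc u Φ.cells)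
      (fun v : Φ.cells => ((u * g s, v.1) : K × Lat)) (fun v : Φ.cells => ((u, v.1) : K × Lat))
      (fun l : Letter C => (l.1, ownQ l)) (fun l : Letter C => (l.1, trkQ (some s) l)) Φ.read
      (fun v => mem_coset_cells.2 ⟨rfl, v.2⟩) (fun v => mem_coset_cells.2 ⟨rfl, v.2⟩)
      (fun _ l l' h => congrArg (fun l : Letter C => (l.1, ownQ l)) h)
      (fun _ l l' h => congrArg (fun l : Letter C => (l.1, trkQ (some s) l)) h)
      fun v b => same_edge u v.1 s b
  refine h1.trans (same_on_coset hc (W₀ := Φ.cells ∪ (Φ.comp (g s)).cells) ?_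
    ((bev_supp u _).trans (product_subset_product_right subset_union_right)) fun p hp => ?_)
  · intro q hq
    obtain ⟨v, -, rfl⟩ := (@mem_image _ _ (_) _ _ _).1 hq
    exact mem_coset_cells.2 ⟨rfl, mem_union_left _ v.2⟩
  · obtain ⟨c, y, hs⟩ := exists_sees E hem hp
    rw [bev_val hs, BEv.comp_val]
    exact Φ.read_val hs (some s)

/-- Events move to every coset. -/
theorem same_move (hgen : Subgroup.closure (Set.range g) = ⊤) (t u : K) (Φ : BEv C E) :
    Same (bev (u * t) Φ) (bev u (Φ.comp t)) := by
  have ht : t ∈ Subgroup.closure (Set.range g) := hgen ▸ Subgroup.mem_top t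
  induction ht using Subgroup.closure_induction generalizing u Φ with
  | mem x hx =>
    obtain ⟨s, rfl⟩ := hx
    exact same_step hc hem u s Φ
  | one =>
    rw [mul_one]
    exact same_bev hc hem u fun c y hy => by rw [BEv.comp_val, inv_one, E.one y hy]
  | mul a b _ _ iha ihb =>
    rw [← mul_assoc]
    exact (ihb (u * a) Φ).trans ((iha u (Φ.comp b)).trans (same_bev hc hem u fun c y hy => by
      simp only [BEv.comp_val, mul_inv_rev, E.mul _ _ y hy]))
  | inv a _ iha =>
    have h := iha (u * a⁻¹) (Φ.comp a⁻¹)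
    rw [inv_mul_cancel_right] at h
    refine Same.symm (h.trans (same_bev hc hem _ fun c y hy => ?_))
    simp only [BEv.comp_val]
    rw [← E.mul _ _ y hy, inv_inv, mul_inv_cancel, E.one y hy]

omit hem in
/-- An event equal to an event of every coset commutes with what lies in one coset. -/
lemma com_central {o o' : (cosetSFT C g).Obs} {w : K} {Φ : BEv C E} (h : Same o (bev w Φ))
    (ho' : ∀ q ∈ o'.supp, q.1 = w) : Com o o' :=
  h.com (com_coset hc (bev_coset w Φ) ho')

/-- An event of one coset commutes with everything in one coset. -/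
theorem com_bev (hgen : Subgroup.closure (Set.range g) = ⊤) (u : K) (Φ : BEv C E)
    {o' : (cosetSFT C g).Obs} {w : K} (ho' : ∀ q ∈ o'.supp, q.1 = w) : Com (bev u Φ) o' := by
  have h := same_move hc hem hgen (w⁻¹ * u) w Φ
  rw [mul_inv_cancel_left] at h
  exact com_central hc h ho'

end Vale.Agent.P193.W4.Rigid.Glue
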