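import Vale.Agent.P193.W4.Rigid.Ctx

/-!
P193, module W4 C2: observables given by components of cells, and the links inside one window: the
common letter is equal in neighbouring cosets, and track `s` of a coset is the own track of its
neighbour at `g s`.
-/

noncomputable section

namespace Vale.Agent.P193.BH.SFT

open Finset
open scoped Classical

variable {Γ : Type} [Group Γ] {S : SFT Γ}

/-- An observable reading one component of finitely many cells. -/
def readObs {ι β : Type} [Fintype ι] (a : ι → Γ) (f : S.A → β) (Φ : (ι → β) → Bool) : S.Obs where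
  supp := univ.image a
  val x := Φ fun i => f (x (a i))
  dep x y h := by
    refine congrArg Φ (funext fun i => ?_)
    rw [h _ (mem_image_of_mem a (mem_univ i))]

@[simp] lemma readObs_supp {ι β : Type} [Fintype ι] (a : ι → Γ) (f : S.A → β)
    (Φ : (ι → β) → Bool) : (readObs a f Φ).supp = univ.image a := rfl

@[simp] lemma readObs_val {ι β : Type} [Fintype ι] (a : ι → Γ) (f : S.A → β)
    (Φ : (ι → β) → Bool) (x : Γ → S.A) :
    (readObs a f Φ).val x = Φ fun i => f (x (a i)) := rfl

/-- The same reading of equal components gives equal observables. -/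
lemma same_readObs {ι β : Type} [Fintype ι] [Fintype β] {g h : Γ → S.A → S.A}
    {U W : Finset Γ} (hU : Ctx g U) (hW : Ctx h W) (a a' : ι → Γ) (f f' : S.A → β)
    (Φ : (ι → β) → Bool) (ha : ∀ i, a i ∈ U) (ha' : ∀ i, a' i ∈ W)
    (hf : ∀ i l l', g (a i) l = g (a i) l' → f l = f l')
    (hf' : ∀ i l l', h (a' i) l = h (a' i) l' → f' l = f' l')
    (hs : ∀ i b, Same (compObs (a i) f b) (compObs (a' i) f' b)) :
    Same (readObs a f Φ) (readObs a' f' Φ) := by
  have hF : ∀ t : ι → β,
      Φ t = decide (∃ t' : ι → β, (∀ q : ι × β, decide (t q.1 = q.2) = decide (t' q.1 = q.2)) ∧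
        Φ t' = true) := by
    intro t
    cases hv : Φ t
    · symm
      rw [decide_eq_false_iff_not]
      rintro ⟨t', he, h⟩
      rw [show t = t' from funext fun i => (by simpa using he (i, t i) : t' i = t i).symm] at hv
      rw [hv] at h
      exact Bool.noConfusion h
    · symm
      rw [decide_eq_true_iff]
      exact ⟨t, fun _ => rfl, hv⟩
  have hsub : univ.image a ⊆ U := image_subset_iff.2 fun i _ => ha i
  have hsub' : univ.image a' ⊆ W := image_subset_iff.2 fun i _ => ha' i
  have ht : (readObs a f Φ).Thru S g := fun x y e => congrArg Φ (funext fun i =>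
    hf i _ _ (e _ (mem_image_of_mem a (mem_univ i))))
  have ht' : (readObs a' f' Φ).Thru S h := fun x y e => congrArg Φ (funext fun i =>
    hf' i _ _ (e _ (mem_image_of_mem a' (mem_univ i))))
  exact same_of_fun (ι := ι × β) (fun q => compObs (a q.1) f q.2) (fun q => compObs (a' q.1) f' q.2)
    (fun v => decide (∃ t' : ι → β, (∀ q : ι × β, v q = decide (t' q.1 = q.2)) ∧ Φ t' = true))
    hU hW hsub ht hsub' ht' (fun q => by simpa using ha q.1) (fun q => thru_comp _ (hf q.1))
    (fun q => by simpa using ha' q.1) (fun q => thru_comp _ (hf' q.1)) (fun p _ => hF _)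
    (fun p _ => hF _) fun q => hs q.1 q.2

end Vale.Agent.P193.BH.SFT

namespace Vale.Agent.P193.W4.Rigid.Glue

open BH BH.SFT Coset Finset
open scoped Classical

variable {k : ℕ} {em : ℕ → Option (List (Full k))} {C : Common k em}
variable {K : Type} [Group K] {g : Fin k → K}

/-- The own tracks of the projection lines. -/
def ownQ (l : Letter C) : Fin 3 → Option Bool := fun i => l.2.Q i none

/-- The track `s` of the projection lines. -/
def trkQ (s : Option (Fin k)) (l : Letter C) : Fin 3 → Option Bool := fun i => l.2.Q i s

lemma pair_ctx (u : K) (v : Lat) (s : Fin k) :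
    Ctx (S := cosetSFT C g) (fun _ l => l) ({(u, v), (u * g s, v)} : Finset (K × Lat)) := by
  refine ctx_window _ (u, v) fun a ha => ?_
  rcases mem_insert.1 ha with rfl | ha
  · exact ⟨(coset g none, pv (fun _ => false, fun _ => false)), mem_cosetWin g _ _,
      Prod.ext (mul_one u).symm (by rw [pv_zero]; exact (mul_one v).symm)⟩
  · rw [mem_singleton] at ha
    subst ha
    exact ⟨(coset g (some s), pv (fun _ => false, fun _ => false)), mem_cosetWin g _ _,
      Prod.ext rfl (by rw [pv_zero]; exact (mul_one v).symm)⟩

lemma pair_rules {u : K} {v : Lat} {s : Fin k} {p : K × Lat → Letter C}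
    (h : (cosetSFT C g).AdmissibleClass (fun _ l => l)
      ({(u, v), (u * g s, v)} : Finset (K × Lat)) p) :
    (p (u * g s, v)).1 = (p (u, v)).1 ∧ EdgeOK s (p (u, v)).2 (p (u * g s, v)).2 := by
  obtain ⟨q, hq, he⟩ := h (u, v)
  let z : Place := (fun _ => false, fun _ => false)
  have hr : ∀ o, readWin C g ((cosetSFT C g).window q (u, v)) o (pv z) =
      q (u * coset g o, v) := fun o => by
    rw [readWin_window q u v o (pv_mem_cube z), pv_zero, mul_one]
  have e : ∀ o, ((u, v) * (coset g o, pv z) : K × Lat) = (u * coset g o, v) := fun o =>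
    Prod.ext rfl (by rw [pv_zero]; exact mul_one v)
  have e0 : q (u, v) = p (u, v) := by
    have := he _ (mem_cosetWin g none z)
    rw [e, coset, mul_one] at this
    exact this (by simp)
  have e1 : q (u * g s, v) = p (u * g s, v) := by
    have := he _ (mem_cosetWin g (some s) z)
    rw [e, coset] at this
    exact this (by simp)
  have hq : WinOK C (readWin C g ((cosetSFT C g).window q (u, v))) := hq
  have h1 := hq.equal s z
  have h2 := hq.edge s z
  rw [hr, hr] at h1 h2
  simp only [coset, mul_one] at h1 h2
  rw [e0, e1] at h1 h2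
  exact ⟨h1, h2⟩

/-- The common letter is the same in the next coset. -/
lemma same_common_step (u : K) (v : Lat) (s : Fin k) (a : C.S.A) :
    Same (S := cosetSFT C g) (compObs (u * g s, v) Prod.fst a) (compObs (u, v) Prod.fst a) :=
  same_of_agree (pair_ctx u v s) (singleton_subset_iff.2 (mem_insert_of_mem (mem_singleton_self _))) (Obs.thru_id _ _) (singleton_subset_iff.2 (mem_insert_self _ _))
    (Obs.thru_id _ _) fun p hp => by
    refine decide_eq_decide.2 ?_
    show (p (u * g s, v)).1 = a ↔ (p (u, v)).1 = a
    rw [(pair_rules hp).1]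

/-- A track is the own track of the neighbour, with the common letter. -/
lemma same_edge (u : K) (v : Lat) (s : Fin k) (b : C.S.A × (Fin 3 → Option Bool)) :
    Same (S := cosetSFT C g) (compObs (u * g s, v) (fun l : Letter C => (l.1, ownQ l)) b)
      (compObs (u, v) (fun l : Letter C => (l.1, trkQ (some s) l)) b) :=
  same_of_agree (pair_ctx u v s) (singleton_subset_iff.2 (mem_insert_of_mem (mem_singleton_self _))) (Obs.thru_id _ _) (singleton_subset_iff.2 (mem_insert_self _ _))
    (Obs.thru_id _ _) fun p hp => by
    obtain ⟨h1, h2⟩ := pair_rules hp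
    refine decide_eq_decide.2 ?_
    show ((p (u * g s, v)).1, ownQ (p (u * g s, v))) = b ↔
      ((p (u, v)).1, trkQ (some s) (p (u, v))) = b
    rw [h1, show ownQ (p (u * g s, v)) = trkQ (some s) (p (u, v)) from funext fun i => (h2 i).symm]

/-- One projection bit is the own bit of the neighbour. -/
lemma same_edge_bit (u : K) (v : Lat) (s : Fin k) (i : Fin 3) (b : Option Bool) :
    Same (S := cosetSFT C g) (compObs (u, v) (fun l : Letter C => l.2.Q i (some s)) b)
      (compObs (u * g s, v) (fun l : Letter C => l.2.Q i none) b) :=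
  same_of_agree (pair_ctx u v s) (singleton_subset_iff.2 (mem_insert_self _ _)) (Obs.thru_id _ _) (singleton_subset_iff.2 (mem_insert_of_mem (mem_singleton_self _)))
    (Obs.thru_id _ _) fun p hp => by
    refine decide_eq_decide.2 ?_
    show (p (u, v)).2.Q i (some s) = b ↔ (p (u * g s, v)).2.Q i none = b
    rw [(pair_rules hp).2 i]

end Vale.Agent.P193.W4.Rigid.Glue
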